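import Vale.Agent.P280B30.Rows
import Vale.Agent.P280G40.Map

/-!
# P280L40: the row `LIFT`
-/

set_option linter.all false

open scoped Manifold ContDiff Topology
open Vale.Agent.P272.K Vale.Agent.P300.Final Vale.Agent.P299G40 Vale.Agent.P300LC Filter
open Vale.Agent.P009.AV (aff)

noncomputable section

namespace Vale.Agent.P280A.L40

variable {n k N K : ℕ} {X : Type} [TopologicalSpace X] [ChartedSpace (Cm n) X]

theorem cont {E : Type} [TopologicalSpace E] {g : X → E} {x : X}
    (h : ContinuousAt (fun z => g ((chartAt (Cm n) x).symm z)) (chartAt (Cm n) x x)) :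
    ContinuousAt g x := by
  refine (h.comp ((chartAt (Cm n) x).continuousAt (mem_chart_source _ x))).congr ?_
  filter_upwards [(chartAt (Cm n) x).open_source.mem_nhds (mem_chart_source _ x)] with z hz
  exact congrArg g ((chartAt (Cm n) x).left_inv hz)

variable [IsManifold 𝓘(ℂ, Cm n) ω X]

theorem holP_mor {Θ : X → PN K} (hΘ : IsProjectiveImmersion (Cm n) Θ) {f : PN K → PN N}
    (hf : IsMor (Set.range Θ) f) : HolP n fun x => f (Θ x) := by
  intro x
  obtain ⟨F, d, hom, ne, eq⟩ := hf _ ⟨x, rfl⟩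
  have L := lift_aff hΘ (idx (Θ x))
  have h1 := idx_ne (Θ x)
  generalize idx (Θ x) = a at L h1
  have an : ∀ e : Chart n X, At e x →
      AnalyticAt ℂ (fun z => fun j => ev (F j) (aff a (Θ (e.symm z)))) (e x) := fun e he =>
    analyticAt_pi_iff.2 fun j => (an_ev (F j) _).comp (L.holo x h1 e he).analyticAt
  have sc : ∀ y, (Θ y).rep a ≠ 0 →
      (Θ y).rep a ^ d • (fun j => ev (F j) (aff a (Θ y))) = val F (Θ y) := fun y hy => by
    funext j
    rw [Pi.smul_apply, smul_eq_mul, ← hom_ev (hom j), P280G40.aff_smul, smul_smul,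
      mul_inv_cancel₀ hy, one_smul]
    rfl
  refine ⟨fun y j => ev (F j) (aff a (Θ y)), an, ?_⟩
  have c : ContinuousAt (fun y => fun j => ev (F j) (aff a (Θ y))) x :=
    cont (n := n) (g := fun y => fun j => ev (F j) (aff a (Θ y))) (an _ (at_chart x)).continuousAt
  filter_upwards [L.isOpen.mem_nhds h1, c.eventually_ne
    (y := 0) fun e => ne ((sc x h1).symm.trans ((congrArg _ e).trans (smul_zero _)))] with y y1 y2
  have y3 : val F (Θ y) ≠ 0 := sc y y1 ▸ smul_ne_zero (pow_ne_zero _ y1) y2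
  exact ⟨y2, (eq _ ⟨y, rfl⟩ y3).trans ((Projectivization.mk_eq_mk_iff' ℂ _ _ _ _).2 ⟨_, sc y y1⟩)⟩

variable {S : Type} [TopologicalSpace S] [ChartedSpace (Cm k) S] {Φ : X → PN N} {φ : S → X}

theorem sep {T : Type} [TopologicalSpace T] {A B : T → PN N} {t : T} {a b : Fin (N + 1)}
    (ha : (A t).rep a ≠ 0) (hb : ∀ᶠ z in 𝓝 t, (B z).rep b ≠ 0)
    (u : ContinuousAt (fun z => aff a (A z)) t) (v : ContinuousAt (fun z => aff b (B z)) t)
    (ne : A t ≠ B t) : ∀ᶠ z in 𝓝 t, A z ≠ B z := by
  have w : ContinuousAt (fun z => aff a (A z) - aff a (A z) b • aff b (B z)) t :=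
    u.sub ((continuousAt_pi.1 u b).smul v)
  have w0 : aff a (A t) - aff a (A t) b • aff b (B t) ≠ 0 := fun e => by
    apply ne
    rw [mk_aff ha, mk_aff hb.self_of_nhds]
    exact (Projectivization.mk_eq_mk_iff' ℂ _ _ _ _).2 ⟨_, (sub_eq_zero.1 e).symm⟩
  filter_upwards [w.eventually_ne w0, hb] with z z1 z2 e
  refine z1 (sub_eq_zero.2 (funext fun j => ?_))
  simp only [e, aff, Pi.smul_apply, smul_eq_mul]
  rw [div_mul_div_comm, mul_comm ((B z).rep b), mul_div_mul_right _ _ z2]

theorem cont_lift [CompactSpace X] (inj : Function.Injective Φ)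
    (hΦ : IsProjectiveImmersion (Cm n) Φ) (h : HolP k fun c => Φ (φ c)) : Continuous φ := by
  refine continuous_iff_continuousAt.2 fun c U hU => ?_
  obtain ⟨V, VU, o, hV⟩ := mem_nhds_iff.1 hU
  have key : ∀ y ∈ Vᶜ, ∀ᶠ z : S × X in 𝓝 (c, y), Φ z.2 ≠ Φ (φ z.1) := fun y hy => by
    have ha := idx_ne (Φ y)
    have hb := idx_ne (Φ (φ c))
    generalize idx (Φ y) = a at ha
    generalize idx (Φ (φ c)) = b at hb
    have u : ContinuousAt (fun x => aff a (Φ x)) y :=
      cont (n := n) ((lift_aff hΦ a).holo y ha _ (at_chart y)).continuousAt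
    have v : ContinuousAt (fun x => aff b (Φ (φ x))) c :=
      cont (n := k) (h.an_aff b c _ hb (at_chart c)).continuousAt
    have e : ∀ᶠ x in 𝓝 c, (Φ (φ x)).rep b ≠ 0 := (h.isOpen b).mem_nhds hb
    exact sep (A := fun z : S × X => Φ z.2) (B := fun z : S × X => Φ (φ z.1)) (t := (c, y)) ha
      ((continuousAt_fst (p := (c, y))).eventually e)
      (ContinuousAt.comp (f := Prod.snd) (x := (c, y)) u continuousAt_snd)
      (ContinuousAt.comp (f := Prod.fst) (x := (c, y)) v continuousAt_fst)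
      fun e => hy ((show y = φ c from inj e).symm ▸ hV)
  have := o.isClosed_compl.isCompact.eventually_forall_of_forall_eventually (x₀ := c)
    (P := fun c y => Φ y ≠ Φ (φ c)) key
  exact Filter.mem_map.2 (this.mono fun c hc => VU (by_contra fun b => hc _ b rfl))

theorem md_lift [CompactSpace X] (inj : Function.Injective Φ)
    (hΦ : IsProjectiveImmersion (Cm n) Φ) (h : HolP k fun c => Φ (φ c)) :
    ContMDiff 𝓘(ℂ, Cm k) 𝓘(ℂ, Cm n) ω φ := by
  intro c
  have ct := (cont_lift inj hΦ h).continuousAt (x := c)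
  refine contMDiffAt_iff.2 ⟨ct, ?_⟩
  simp only [mfld_simps, contDiffWithinAt_univ]
  have ha := idx_ne (Φ (φ c))
  generalize idx (Φ (φ c)) = a at ha
  have he := at_chart (n := n) (φ c)
  have he' := at_chart (n := k) c
  generalize chartAt (Cm n) (φ c) = e at he ⊢
  generalize chartAt (Cm k) c = e' at he' ⊢
  have G := (lift_aff hΦ a).holo _ ha e he
  obtain ⟨L, hL⟩ := (fderiv ℂ (fun z => aff a (Φ (e.symm z))) (e (φ c))).toLinearMap.exists_leftInverse_of_injective
    (LinearMap.ker_eq_bot'.2 fun v hv => (lift_aff hΦ a).imm _ ha e he v 0 (hv.trans (zero_smul _ _).symm))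
  let L' := LinearMap.toContinuousLinearMap L
  have G' := L'.contDiff.contDiffAt.comp _ G
  have D : HasFDerivAt (L' ∘ fun z => aff a (Φ (e.symm z)))
      (ContinuousLinearEquiv.refl ℂ (Cm n) : Cm n →L[ℂ] Cm n) (e (φ c)) := by
    refine (L'.hasFDerivAt.comp _ (G.differentiableAt (by simp)).hasFDerivAt).congr_fderiv ?_
    exact ContinuousLinearMap.ext fun v => LinearMap.congr_fun hL v
  have I := G'.to_localInverse D (by simp)
  have li := (G'.hasStrictFDerivAt' D (by simp)).eventually_left_inverse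
  have A := L'.contDiff.contDiffAt.comp _ (h.an_aff a c e' ha he').contDiffAt (n := ω)
  refine (ContDiffAt.comp (e' c) (g := G'.localInverse D (by simp)) ?_ A).congr_of_eventuallyEq ?_
  · simpa only [Function.comp_apply, he.left_inv, he'.left_inv] using I
  have t := (ct.tendsto.comp (e'.tendsto_symm he'.2))
  filter_upwards [((e.continuousAt he.2).tendsto.comp t).eventually li,
    t.eventually (e.open_source.mem_nhds he.2)] with w w1 w2
  simp only [Function.comp_apply] at w1 w2 ⊢
  rw [e.left_inv w2] at w1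
  exact w1.symm

end L40

theorem lift40 : LIFT := by
  intro n N K Z X _ _ _ _ _ Φ C S _ _ _ _ _ Θ f _ ⟨inj, hΦ, r⟩ ⟨_, hΘ, r'⟩ hf mt
  subst r r'
  choose φ hφ using fun c => mt (Set.mem_range_self c)
  refine ⟨φ, L40.md_lift inj hΦ ?_, hφ⟩
  simp only [hφ]
  exact L40.holP_mor hΘ hf

end Vale.Agent.P280A

end
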